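import Vale.Agent.P267.H399.LBCalc
import Vale.Agent.P267.H399.Calc3
import Vale.Agent.P267.H181.Frm
import Vale.Agent.P267.H451.Frame
import Vale.Agent.P267.H332.Pair.Curv

/-!
# P267 / D-LBNF (helper466): holomorphic sections and norm functions

* `exists_coeff`: a holomorphic section is a holomorphic function times a local holomorphic frame;
* `dense_ne_zero`: identity theorem for holomorphic sections on a connected surface;
* `lbnf`: `‖s‖²` is a norm function whose curvature is the Chern curvature of `(L, a)`.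
-/

set_option linter.unusedSectionVars false

open scoped Manifold ContDiff ComplexConjugate Matrix Topology
open MeasureTheory Set Filter

noncomputable section

namespace Vale.Agent.P267.H466

open Vale.Agent.P267.FL Vale.Agent.P267.H757 Vale.Agent.P267.H332

section

variable {X : Type} [TopologicalSpace X] [ChartedSpace C2 X] [IsManifold 𝓘(ℂ, C2) ω X]
variable {ι : Type} [Fintype ι] [DecidableEq ι]

/-- bilinear expression for the hermitian product -/
def hp (v w : EuclideanSpace ℂ ι) : ℂ := ∑ i, conj (v i) * w i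

omit [DecidableEq ι] in
theorem hp_self (v : EuclideanSpace ℂ ι) : hp v v = ((‖v‖ ^ 2 : ℝ) : ℂ) := by
  rw [EuclideanSpace.norm_sq_eq]
  unfold hp
  push_cast
  refine Finset.sum_congr rfl fun i _ => ?_
  rw [mul_comm, Complex.mul_conj, Complex.normSq_eq_norm_sq]
  push_cast; rfl

omit [DecidableEq ι] in
theorem hp_self_ne {v : EuclideanSpace ℂ ι} (hv : v ≠ 0) : hp v v ≠ 0 := by
  rw [hp_self]
  have : ‖v‖ ^ 2 ≠ 0 := pow_ne_zero _ (norm_ne_zero_iff.2 hv)
  exact_mod_cast this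

omit [DecidableEq ι] in
theorem hp_smul (v w : EuclideanSpace ℂ ι) (c : ℂ) : hp v (c • w) = c * hp v w := by
  unfold hp
  rw [Finset.mul_sum]
  refine Finset.sum_congr rfl fun i _ => ?_
  simp only [PiLp.smul_apply, smul_eq_mul]
  ring

/-- coefficient of `s` with respect to `f` -/
def cof (f s : X → EuclideanSpace ℂ ι) (y : X) : ℂ := hp (f y) (s y) / hp (f y) (f y)

theorem at0_hp {n : WithTop ℕ∞} {f s : X → EuclideanSpace ℂ ι} {y : X} (hf : At0 n 0 f y)
    (hs : At0 n 0 s y) : At0 n 0 (fun y => hp (f y) (s y)) y := by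
  unfold hp
  refine At0.sum fun i _ => ?_
  have h1 : At0 n 0 (fun y => f y i) y := hf.clm (LB.ev i)
  have h2 : At0 n 0 (fun y => s y i) y := hs.clm (LB.ev i)
  have h3 := h1.conj.mul h2
  simpa using h3

variable {L : LB X ι} {a : X → Fin 2 → ℂ}

theorem cof_spec {f s : X → EuclideanSpace ℂ ι} {y : X} (hf : LB.act (L.P y) (f y) = f y)
    (hs : LB.act (L.P y) (s y) = s y) (h0 : f y ≠ 0) : s y = cof f s y • f y := by
  obtain ⟨c, hc⟩ := LB.fibre_smul L y hf hs h0
  have : cof f s y = c := by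
    unfold cof
    rw [hc, hp_smul, mul_div_assoc, div_self (hp_self_ne h0), mul_one]
  rw [this, hc]

/-- the coefficient of a holomorphic section in a holomorphic frame is holomorphic -/
theorem exists_coeff {f s : X → EuclideanSpace ℂ ι} (hf : Reg0 ∞ 0 f) (hfs : L.Sec f)
    (hs : Reg0 ∞ 0 s) (hss : L.Sec s) {W : Set X} (hW : IsOpen W)
    (hfW : ∀ y ∈ W, f y ≠ 0 ∧ L.db0 a 0 f y = 0) (hsW : ∀ y ∈ W, L.db0 a 0 s y = 0) :
    (∀ y ∈ W, s y = cof f s y • f y) ∧ ∀ y ∈ W, HolAt 0 (cof f s) y := by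
  have h1 : ∀ y ∈ W, s y = cof f s y • f y := fun y hy => cof_spec (hfs y) (hss y) (hfW y hy).1
  have h2 : ∀ y ∈ W, At0 ∞ 0 (cof f s) y := by
    intro y hy
    have e1 := at0_hp (hf.at y) (hs.at y)
    have e2 := at0_hp (hf.at y) (hf.at y)
    have e3 := e1.mul (e2.inv0 (hp_self_ne (hfW y hy).1))
    refine (by simpa using e3 : At0 ∞ 0 (fun y => hp (f y) (s y) * (hp (f y) (f y))⁻¹) y).congr ?_
    exact Eventually.of_forall fun z => div_eq_mul_inv _ _
  have h3 : ∀ y ∈ W, dbar0 0 (cof f s) y = 0 := by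
    intro y hy
    funext i
    have e1 : s =ᶠ[𝓝 y] fun z => cof f s z • f z := by
      filter_upwards [hW.mem_nhds hy] with z hz using h1 z hz
    have e2 := LB.db0_congr (L := L) (a := a) (κ := 0) e1
    rw [hsW y hy] at e2
    have e3 := LB.db0_smul (L := L) (a := a) ((h2 y hy).of_le (by simp))
      ((hf.at y).of_le (by simp)) (hfs y) i
    have e4 := congrFun e2 i
    rw [e3, congrFun (hfW y hy).2 i] at e4
    simp only [Pi.zero_apply, smul_zero, add_zero] at e4
    exact (smul_eq_zero.1 e4.symm).resolve_right (hfW y hy).1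
  refine ⟨h1, fun y hy => holAt_of_dbar0 ?_⟩
  filter_upwards [hW.mem_nhds hy] with z hz
  exact ⟨(h2 z hz).of_le (by simp), h3 z hz⟩

variable [T2Space X]

/-- local data at a point -/
theorem exists_local (hol : L.IsHol a) {s : X → EuclideanSpace ℂ ι} (hs : Reg0 ∞ 0 s)
    (hss : L.Sec s) (hsh : ∀ x i, L.db0 a 0 s x i = 0) (x : X) :
    ∃ (W : Set X) (f : X → EuclideanSpace ℂ ι), IsOpen W ∧ x ∈ W ∧ Reg0 ∞ 0 f ∧ L.Sec f ∧
      (∀ y ∈ W, f y ≠ 0 ∧ L.db0 a 0 f y = 0) ∧ (∀ y ∈ W, s y = cof f s y • f y) ∧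
      ∀ y ∈ W, HolAt 0 (cof f s) y := by
  obtain ⟨f, hf, hfs, hev⟩ := H181.hasFrames hol x
  obtain ⟨W, hW, hWo, hxW⟩ := mem_nhds_iff.1 hev
  have h := exists_coeff (a := a) hf hfs hs hss hWo (fun y hy => hW hy)
    (fun y _ => funext fun i => hsh y i)
  exact ⟨W, f, hWo, hxW, hf, hfs, fun y hy => hW hy, h.1, h.2⟩

/-- IDENTITY THEOREM for holomorphic sections. -/
theorem dense_ne_zero [PreconnectedSpace X] (hol : L.IsHol a) {s : X → EuclideanSpace ℂ ι}
    (hs : Reg0 ∞ 0 s) (hss : L.Sec s) (hsh : ∀ x i, L.db0 a 0 s x i = 0) {x₀ : X}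
    (hx₀ : s x₀ ≠ 0) : Dense {x | s x ≠ 0} := by
  set A : Set X := {x | s =ᶠ[𝓝 x] fun _ => 0} with hA
  have hAo : IsOpen A := by
    rw [isOpen_iff_mem_nhds]
    intro x hx
    exact hx.eventually_nhds
  have hAc : IsClosed A := by
    rw [← isOpen_compl_iff, isOpen_iff_mem_nhds]
    intro x hx
    obtain ⟨W, f, hWo, hxW, hf, hfs, hfW, hc, hch⟩ := exists_local hol hs hss hsh x
    set e := chartAt C2 x with he
    have hxe : x ∈ e.source := mem_chart_source C2 x
    -- a ball in the chart on which the coefficient is analytic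
    have hO : IsOpen (e.target ∩ e.symm ⁻¹' W) := e.symm.isOpen_inter_preimage hWo
    have hmem : e x ∈ e.target ∩ e.symm ⁻¹' W :=
      ⟨e.map_source hxe, by simpa [e.left_inv hxe] using hxW⟩
    obtain ⟨r, hr, hball⟩ := Metric.isOpen_iff.1 hO _ hmem
    set g : C2 → ℂ := fun z => cof f s (e.symm z) with hg
    have han : AnalyticOnNhd ℂ g (Metric.ball (e x) r) := by
      intro z hz
      have h1 := (hch (e.symm z) (hball hz).2).chart (chart_mem_atlas C2 x)
        (e.map_target (hball hz).1)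
      rw [LB.loc0_zero, e.right_inv (hball hz).1] at h1
      exact h1
    have hnb : e.source ∩ e ⁻¹' Metric.ball (e x) r ∈ 𝓝 x :=
      (e.isOpen_inter_preimage Metric.isOpen_ball).mem_nhds
        ⟨hxe, Metric.mem_ball_self hr⟩
    refine mem_of_superset hnb ?_
    intro y hy hyA
    apply hx
    -- `g` vanishes near `e y`
    have h2 : g =ᶠ[𝓝 (e y)] 0 := by
      have hcont : Tendsto e.symm (𝓝 (e y)) (𝓝 y) := by
        have := e.continuousAt_symm (e.map_source hy.1)
        rwa [ContinuousAt, e.left_inv hy.1] at this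
      have h3 : ∀ᶠ z in 𝓝 (e y), s (e.symm z) = 0 := hcont.eventually hyA
      filter_upwards [h3, Metric.isOpen_ball.mem_nhds hy.2] with z hz hzb
      have h4 := hc (e.symm z) (hball hzb).2
      rw [hz] at h4
      exact (smul_eq_zero.1 h4.symm).resolve_right (hfW _ (hball hzb).2).1
    have h5 := han.eqOn_zero_of_preconnected_of_eventuallyEq_zero
      (convex_ball (e x) r).isPreconnected hy.2 h2
    show s =ᶠ[𝓝 x] fun _ => 0
    filter_upwards [hnb] with z hz
    have h6 : e.symm (e z) = z := e.left_inv hz.1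
    have h7 : z ∈ W := by
      have := (hball hz.2).2
      rwa [mem_preimage, h6] at this
    have h8 : cof f s z = 0 := by
      have := h5 hz.2
      simpa [hg, h6] using this
    rw [hc z h7, h8, zero_smul]
  have hAe : A = ∅ := by
    rcases isClopen_iff.1 ⟨hAc, hAo⟩ with h | h
    · exact h
    · exfalso
      have : x₀ ∈ A := by rw [h]; trivial
      exact hx₀ this.self_of_nhds
  rw [dense_iff_inter_open]
  intro V hV hne
  by_contra hemp
  obtain ⟨y, hy⟩ := hne
  have : y ∈ A := by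
    show s =ᶠ[𝓝 y] fun _ => 0
    filter_upwards [hV.mem_nhds hy] with z hz
    by_contra hzne
    exact hemp ⟨z, hz, hzne⟩
  rw [hAe] at this
  exact this

/-- **D-LBNF.** -/
theorem lbnf (hol : L.IsHol a) {s : X → EuclideanSpace ℂ ι} (hs : Reg0 ∞ 0 s)
    (hss : L.Sec s) (hsh : ∀ x i, L.db0 a 0 s x i = 0) (hd : Dense {x | s x ≠ 0}) :
    IsNormFn C2 (fun x => ‖s x‖ ^ 2) ∧ cF (fun x => ‖s x‖ ^ 2) = L.chern a := by
  have key : ∀ x : X, ∃ (W : Set X) (f : X → EuclideanSpace ℂ ι), IsOpen W ∧ x ∈ W ∧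
      (∀ y ∈ W, H451.FrameAt L a f y) ∧
      LocRep C2 (fun x => ‖s x‖ ^ 2) W (cof f s) (fun y => -Real.log (‖f y‖ ^ 2)) := by
    intro x
    obtain ⟨W, f, hWo, hxW, hf, hfs, hfW, hc, hch⟩ := exists_local hol hs hss hsh x
    refine ⟨W, f, hWo, hxW, fun y hy => ⟨H451.sm_of_reg0 hf y, (hfW y hy).1, hfs y,
      fun i => congrFun (hfW y hy).2 i⟩, hWo, ?_, ?_, ?_, ?_⟩
    · exact (holOn_zero_iff_mdifferentiableOn hWo).1 (holOn_of_holAt hch)
    · intro V hV hVW hne
      obtain ⟨y, hyV, hy⟩ := hd.inter_open_nonempty V hV hne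
      refine ⟨y, hyV, fun h0 => hy ?_⟩
      rw [hc y (hVW hyV), h0, zero_smul]
    · intro y hy
      have h1 : ContMDiffAt 𝓘(ℝ, C2) 𝓘(ℝ, EuclideanSpace ℂ ι) ∞ f y :=
        contMDiffAt_iff_at0.2 (hf.at y)
      have h2 : ContDiffAt ℝ ∞ (fun v : EuclideanSpace ℂ ι => -Real.log (‖v‖ ^ 2)) (f y) := by
        have h3 : ContDiffAt ℝ ∞ (fun v : EuclideanSpace ℂ ι => ‖v‖ ^ 2) (f y) :=
          (contDiff_norm_sq ℂ).contDiffAt
        exact (h3.log (pow_ne_zero _ (norm_ne_zero_iff.2 (hfW y hy).1))).neg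
      exact (ContMDiffAt.comp y h2.contMDiffAt h1).contMDiffWithinAt
    · intro y hy
      have hpos : 0 < ‖f y‖ ^ 2 := pow_pos (norm_pos_iff.2 (hfW y hy).1) 2
      show ‖s y‖ ^ 2 = _
      rw [neg_neg, Real.exp_log hpos, ← mul_pow, ← norm_smul, ← hc y hy]
  have hN : IsNormFn C2 (fun x => ‖s x‖ ^ 2) := by
    intro x
    obtain ⟨W, f, hWo, hxW, -, hr⟩ := key x
    exact ⟨W, _, _, hxW, hr⟩
  refine ⟨hN, ?_⟩
  have hall : ∀ x, (L.chern a).f20 x = 0 ∧ (L.chern a).f11 x = curvN (fun x => ‖s x‖ ^ 2) x ∧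
      (L.chern a).f02 x = 0 := by
    intro x
    obtain ⟨W, f, hWo, hxW, hfr, hr⟩ := key x
    obtain ⟨h1, h2, h3⟩ := H451.frame_chern hWo hfr hxW
    refine ⟨h1, ?_, h3⟩
    rw [h2, curvN_eq_ddb hr hxW]
    ext i j
    have h4 : (fun y => ((-Real.log (‖f y‖ ^ 2) : ℝ) : ℂ)) =
        fun y => -((Real.log (‖f y‖ ^ 2) : ℝ) : ℂ) := by
      funext y; push_cast; rfl
    rw [h4]
    unfold ddb del1
    simp only [Matrix.of_apply, Matrix.neg_apply]
    have h5 : (dbar0 0 fun y => -((Real.log (‖f y‖ ^ 2) : ℝ) : ℂ)) =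
        fun x i => -dbar0 0 (fun y => ((Real.log (‖f y‖ ^ 2) : ℝ) : ℂ)) x i := by
      funext x i
      unfold dbar0
      rw [LB.loc0_zero, LB.loc0_zero]
      exact FL.dzb_neg (f := (fun y => ((Real.log (‖f y‖ ^ 2) : ℝ) : ℂ)) ∘
        (chartAt C2 x).symm) i
    rw [h5]
    have h6 : (fun z => loc1 0 (chartAt C2 x) (fun x i => -dbar0 0
        (fun y => ((Real.log (‖f y‖ ^ 2) : ℝ) : ℂ)) x i) z j) =
        fun z => -loc1 0 (chartAt C2 x) (dbar0 0 (fun y => ((Real.log (‖f y‖ ^ 2) : ℝ) : ℂ))) z j := by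
      funext z
      simp only [loc1, smul_neg, Finset.sum_neg_distrib]
    rw [h6, FL.dz_neg]
  cases hF : L.chern a with
  | mk g20 g11 g02 =>
    rw [hF] at hall
    simp only [cF, TwoF.mk.injEq]
    exact ⟨funext fun x => (hall x).1.symm, funext fun x => (hall x).2.1.symm,
      funext fun x => (hall x).2.2.symm⟩

end

end Vale.Agent.P267.H466
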