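import Vale.Agent.P267.H466.NefNF
import Vale.Agent.P267.H466.LBNF
import Vale.Agent.P267.H877.XtThm
import Vale.Agent.P267.H622.PushXT
import Vale.Agent.P267.H622.CovMaps
import Vale.Agent.P267.H332.Pair.IntAx
import Vale.Agent.P267.H399.LBCurv
import Vale.Agent.P267.H662.KBEx
import Vale.Agent.P267.H62.NFLB

/-!
# P267 / AIN0 (helper466): `XT.AinThm`, all inputs linked

* `nefNF_of_nef` : `Asm.Nef X` gives `NefNF LK` for every canonical `LK`;
* `ainThm` : `XT.AinThm` of `H877/XtThm.lean`.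
-/

set_option linter.unusedSectionVars false
set_option linter.unusedVariables false

open scoped Manifold ContDiff ComplexConjugate Matrix Topology
open MeasureTheory Set Filter
open Vale.Agent.P272.K (Cm)

noncomputable section

namespace Vale.Agent.P267.H466

open Vale.Agent.P267.FL Vale.Agent.P267.XT Vale.Agent.P267.H757 Vale.Agent.P267.H332
open Vale.Agent.P267.H158

section inputs

variable (X : Type) [TopologicalSpace X] [T2Space X] [ChartedSpace C2 X]
  [IsManifold 𝓘(ℂ, C2) ω X]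

theorem lbnfP : LBNF X := fun ι _ _ L a s hol hs hss hsh hd => lbnf hol hs hss hsh hd

omit [T2Space X] in
theorem curvOK : CurvOK X := fun ι _ _ L => ⟨L.curv_smooth, L.curv_closed⟩

theorem nflbP [CompactSpace X] : NFLB X := fun N hN => H62.nflb N hN

/-- `Asm.Nef` implies `NefNF` -/
theorem nefNF_of_nef [CompactSpace X] [Nonempty X] (h : Asm.Nef X) {ι' : Type} [Fintype ι']
    [DecidableEq ι'] {LK : LB X ι'} (hK : RR.IsCanon LK) : NefNF LK :=
  nefNF (nflbP X) (lbnfP X) intAx (curvOK X) fun r L a hol s hs hs0 =>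
    h (Fin r) ι' L a LK hol hK s hs hs0

end inputs

section pull

variable {M X : Type} [TopologicalSpace M] [ChartedSpace C2 M] [IsManifold 𝓘(ℂ, C2) ω M]
  [TopologicalSpace X] [ChartedSpace C2 X] [IsManifold 𝓘(ℂ, C2) ω X]
variable {ι' : Type} [Fintype ι'] [DecidableEq ι']

theorem isCanon_lb {q : M → X} (hq : ChartMap q) {LK : LB X ι'} (h : RR.IsCanon LK) :
    RR.IsCanon (hq.lb LK) := by
  obtain ⟨σ, h1, h2, h3⟩ := h
  exact ⟨fun x => σ (q x), hq.reg0_comp h1, fun x => h2 (q x), fun x => h3 (q x)⟩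

theorem exists_isCanon (X : Type) [TopologicalSpace X] [T2Space X] [CompactSpace X]
    [ChartedSpace C2 X] [IsManifold 𝓘(ℂ, C2) ω X] :
    ∃ (N : ℕ) (LK : LB X (Fin N)), RR.IsCanon LK := by
  obtain ⟨N, ⟨K⟩⟩ := H662.exists_KBun (X := X)
  exact ⟨N, K.L, K.σ, K.sm, K.sec, K.ne⟩

end pull

section cov

variable {X : Type} [TopologicalSpace X] [ChartedSpace C2 X] {hh : C(X, UnitAddCircle)}

theorem sh_eq_shift (D : XTData (Cov hh)) (hγ : ∀ x, D.γ x = Cov.γ x) (k : ℤ) (x : Cov hh) :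
    D.sh k x = Cov.shift k x := by
  revert k
  apply XTData.sh_induction
  · rw [D.sh_zero, Cov.shift_zero]
  · intro k hk
    rw [← D.γ_sh, hk, hγ, Cov.γ, ← Cov.shift_add, add_comm]
  · intro k hk
    have h1 : D.γ (D.sh (k - 1) x) = D.sh k x := by rw [D.γ_sh, sub_add_cancel]
    have h2 : Cov.γ (Cov.shift (k - 1) x) = Cov.shift k x := by
      rw [Cov.γ, ← Cov.shift_add, add_sub_cancel]
    rw [hγ, hk, ← h2] at h1
    exact (Cov.γ (h := hh)).injective h1

/-- the limit at the inner end is zero: version with a generic bundle -/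
theorem ainLeaf [T2Space X] [CompactSpace X] [ConnectedSpace X] [IsManifold 𝓘(ℂ, C2) ω X]
    (hN : Asm.Nef X) (D : XTData (Cov hh)) (hγ : ∀ x, D.γ x = Cov.γ x) (hP : Primitive hh)
    {ι : Type} [Fintype ι] [DecidableEq ι] {L : LB (Cov hh) ι} {i₀ : ι}
    (can : ∀ K : BlockC.ALB (Cov hh), RR.IsCanon K.L → (RR.isec K.L L).re < 0)
    {a : Cov hh → Fin 2 → ℂ} {R N : ℝ} (hE : D.EndTriv L i₀ a R N) : D.AinLeaf L i₀ a := by
  have hlc : LocallyConnectedSpace X := ChartedSpace.locallyConnectedSpace (Cm 2) X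
  have hcs : ConnectedSpace (Cov hh) := Cov.connectedSpace hP
  have hq : ChartMap (Cov.p : Cov hh → X) := chartMap_p
  obtain ⟨n, LK, hLK⟩ := exists_isCanon X
  have hqD : ∀ k x, Cov.p (D.sh k x) = Cov.p x := fun k x => by
    rw [sh_eq_shift D hγ, Cov.p_shift]
  have orb : ∀ x y : Cov hh, Cov.p x = Cov.p y → ∃ k : ℤ, y = D.sh k x := fun x y hxy => by
    obtain ⟨k, hk⟩ := Cov.p_eq_iff.1 hxy
    exact ⟨k, by rw [sh_eq_shift D hγ, hk]⟩
  have hsc : SigmaCompactSpace (Cov hh) := D.sigmaCompact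
  intro α b hreg hsec hhol h1 hb
  obtain ⟨x₁⟩ : Nonempty (Cov hh) := inferInstance
  -- the outer end is not empty, so `α` is not identically zero
  have hne : ∃ x, α x ≠ 0 := by
    have hbot : (comap D.f atTop).NeBot := by
      rw [comap_neBot_iff]
      intro t ht
      obtain ⟨A, hA⟩ := mem_atTop_sets.1 ht
      obtain ⟨k, hk⟩ := exists_int_gt (A - D.f x₁)
      refine ⟨D.sh k x₁, hA _ ?_⟩
      rw [D.f_sh]; linarith
    have h2 : ∀ᶠ x in comap D.f atTop, α x i₀ ≠ 0 := h1.eventually_ne one_ne_zero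
    obtain ⟨x, hx⟩ := h2.exists
    exact ⟨x, fun h0 => hx (by rw [h0]; rfl)⟩
  obtain ⟨x₀, hx₀⟩ := hne
  have hdense := dense_ne_zero hE.hol hreg hsec hhol hx₀
  have hKx : (RR.isec (hq.lb LK) L).re < 0 := can ⟨Fin n, hq.lb LK⟩ (isCanon_lb hq hLK)
  have hint : PushInt D (Cov.p : Cov hh → X) := fun b b' hr hc h =>
    D.pushInt hq Cov.surjective_p hqD orb hr hc h
  exact ain_zero hq Cov.surjective_p D hqD orb (lbnfP _) hint intAx (curvOK _)
    (nefNF_of_nef X hN hLK) hE.hol hE.ends hKx hreg hsec hhol hdense one_ne_zero h1 hb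

end cov

/-- **AIN0.** -/
theorem ainThm : XT.AinThm := by
  intro X _ _ _ _ _ _ n hX hN B hS E i₀ R hE a N hN' hEa
  exact ainLeaf hN B.D B.γ_eq B.prim (fun K hK => by rw [hE.can K hK]; norm_num) hEa

end Vale.Agent.P267.H466
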